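import Mathlib

/-!
# P013: Jacobsthal's function for integers whose prime divisors have small reciprocal sum
-/

namespace Vale.Agent.Results.P013.RoughIntegers

/-- every block of `m` consecutive integers contains an integer coprime to `n` -/
def Good (n m : ℕ) : Prop := ∀ a : ℤ, ∃ i : ℕ, i < m ∧ Int.gcd (a + i) n = 1

/-- Jacobsthal's function: the least positive `m` that is good for `n` -/
noncomputable def jac (n : ℕ) : ℕ := sInf {m : ℕ | 0 < m ∧ Good n m}

/-- the number of distinct prime divisors of `n` -/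
def omega (n : ℕ) : ℕ := n.primeFactors.card

/-- the sum of the reciprocals of the prime divisors of `n` -/
noncomputable def recip (n : ℕ) : ℝ := ∑ p ∈ n.primeFactors, (1 / (p : ℝ))

theorem good_self (n : ℕ) (hn : 0 < n) : Good n n := by
  intro a
  have hn' : (0 : ℤ) < n := by exact_mod_cast hn
  refine ⟨((1 - a) % n).toNat, ?_, ?_⟩
  · have h1 := Int.emod_lt_of_pos (1 - a) hn'
    have h0 := Int.emod_nonneg (1 - a) hn'.ne'
    omega
  · have h0 := Int.emod_nonneg (1 - a) hn'.ne'
    rw [Int.toNat_of_nonneg h0, ← Int.isCoprime_iff_gcd_eq_one]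
    have h2 : a + (1 - a) % n = 1 + n * (-((1 - a) / n)) := by
      have := Int.emod_add_mul_ediv (1 - a) n
      linarith
    rw [h2]
    exact (isCoprime_one_left).add_mul_left_left _

theorem jac_spec (n : ℕ) (hn : 0 < n) : 0 < jac n ∧ Good n (jac n) :=
  Nat.sInf_mem (s := {m : ℕ | 0 < m ∧ Good n m}) ⟨n, hn, good_self n hn⟩

theorem jac_le (n m : ℕ) (hm : 0 < m) (h : Good n m) : jac n ≤ m :=
  Nat.sInf_le (s := {m : ℕ | 0 < m ∧ Good n m}) ⟨hm, h⟩

theorem card_mult_le (a : ℤ) (m p : ℕ) (hp : 0 < p) :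
    ((Finset.range m).filter (fun i : ℕ => (p : ℤ) ∣ a + i)).card ≤ m / p + 1 := by
  have h := Finset.card_le_card_of_injOn (s := (Finset.range m).filter (fun i : ℕ => (p : ℤ) ∣ a + i))
    (t := Finset.range (m / p + 1)) (fun i => i / p) ?_ ?_
  · simpa using h
  · intro i hi
    have hi' := (Finset.mem_filter.mp hi).1
    simp only [Finset.coe_range, Set.mem_Iio]
    have : i / p ≤ m / p := Nat.div_le_div_right (Finset.mem_range.mp hi').le
    omega
  · intro i hi j hj hij
    have hi' := (Finset.mem_filter.mp hi).2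
    have hj' := (Finset.mem_filter.mp hj).2
    simp only at hij
    have h1 : (p : ℤ) ∣ (i : ℤ) - j := by
      have := dvd_sub hi' hj'
      simpa using this
    have h2 : (j : ℤ) ≡ i [ZMOD p] := (Int.modEq_iff_dvd).mpr h1
    have h3 : j % p = i % p := (Int.natCast_modEq_iff.mp h2)
    have h4 := Nat.div_add_mod i p
    have h5 := Nat.div_add_mod j p
    rw [hij, ← h3] at h4
    omega

theorem good_of_lt (n m : ℕ) (hn : 0 < n) (h : (omega n : ℝ) + m * recip n < m) : Good n m := by
  intro a
  by_contra hcon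
  push Not at hcon
  have hcover : Finset.range m ⊆ n.primeFactors.biUnion
      (fun p => (Finset.range m).filter (fun i : ℕ => (p : ℤ) ∣ a + i)) := by
    intro i hi
    have h1 := hcon i (Finset.mem_range.mp hi)
    obtain ⟨p, hp, hpd⟩ := Nat.exists_prime_and_dvd h1
    have h2 : (p : ℤ) ∣ a + i :=
      (Int.natCast_dvd_natCast.mpr hpd).trans (Int.gcd_dvd_left (a + i) n)
    have h3 : p ∣ n := by
      have : (p : ℤ) ∣ (n : ℤ) :=
        (Int.natCast_dvd_natCast.mpr hpd).trans (Int.gcd_dvd_right (a + i) n)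
      exact_mod_cast this
    exact Finset.mem_biUnion.mpr ⟨p, Nat.mem_primeFactors.mpr ⟨hp, h3, hn.ne'⟩,
      Finset.mem_filter.mpr ⟨hi, h2⟩⟩
  have h1 : m ≤ ∑ p ∈ n.primeFactors, (m / p + 1) := by
    calc m = (Finset.range m).card := (Finset.card_range m).symm
      _ ≤ _ := Finset.card_le_card hcover
      _ ≤ ∑ p ∈ n.primeFactors,
          ((Finset.range m).filter (fun i : ℕ => (p : ℤ) ∣ a + i)).card := Finset.card_biUnion_le
      _ ≤ ∑ p ∈ n.primeFactors, (m / p + 1) := Finset.sum_le_sum fun p hp =>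
          card_mult_le a m p (Nat.prime_of_mem_primeFactors hp).pos
  have h2 : (m : ℝ) ≤ ∑ p ∈ n.primeFactors, ((m : ℝ) * (1 / (p : ℝ)) + 1) := by
    calc (m : ℝ) ≤ ((∑ p ∈ n.primeFactors, (m / p + 1) : ℕ) : ℝ) := by exact_mod_cast h1
      _ = ∑ p ∈ n.primeFactors, (((m / p : ℕ) : ℝ) + 1) := by push_cast; rfl
      _ ≤ _ := by
        refine Finset.sum_le_sum fun p _ => ?_
        have := @Nat.cast_div_le ℝ _ _ _ m p
        rw [mul_one_div]
        linarith
  rw [Finset.sum_add_distrib, ← Finset.mul_sum] at h2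
  simp only [Finset.sum_const, nsmul_eq_mul, mul_one] at h2
  unfold omega recip at h
  linarith

theorem omega_lt_of_good (n m : ℕ) (h : Good n m) : omega n < m := by
  by_contra hcon
  push Not at hcon
  set e := n.primeFactors.equivFin with he
  have hcop : Set.Pairwise (↑(Finset.univ : Finset n.primeFactors))
      (Function.onFun Nat.Coprime (fun p : n.primeFactors => (p : ℕ))) := by
    intro p _ q _ hpq
    exact (Nat.coprime_primes (Nat.prime_of_mem_primeFactors p.2)
      (Nat.prime_of_mem_primeFactors q.2)).mpr (fun h => hpq (Subtype.ext h))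
  obtain ⟨x, hx⟩ := Nat.chineseRemainderOfFinset
    (fun p : n.primeFactors => (p : ℕ) * omega n - (e p : ℕ)) (fun p => (p : ℕ)) Finset.univ
    (fun p _ => (Nat.prime_of_mem_primeFactors p.2).ne_zero) hcop
  obtain ⟨i, hi, hg⟩ := h (x : ℤ)
  have hik : i < n.primeFactors.card := lt_of_lt_of_le hi hcon
  set p := e.symm ⟨i, hik⟩ with hp
  have hpp := Nat.prime_of_mem_primeFactors p.2
  have hep : (e p : ℕ) = i := by simp [hp]
  have h1 := hx p (Finset.mem_univ _)
  simp only [hep] at h1
  have h2 : (p : ℕ) ∣ x + i := by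
    have h3 : x + i ≡ ((p : ℕ) * omega n - i) + i [MOD p] := h1.add_right i
    have h4 : i ≤ (p : ℕ) * omega n := by
      have : omega n ≤ (p : ℕ) * omega n := Nat.le_mul_of_pos_left _ hpp.pos
      unfold omega at this ⊢
      omega
    rw [Nat.sub_add_cancel h4] at h3
    exact (Nat.modEq_zero_iff_dvd.mp (h3.trans (Nat.modEq_zero_iff_dvd.mpr (Dvd.intro _ rfl))))
  have h5 : (p : ℕ) ∣ Int.gcd ((x : ℤ) + i) n := by
    apply Int.dvd_gcd
    · exact_mod_cast h2
    · exact_mod_cast Nat.dvd_of_mem_primeFactors p.2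
  rw [hg] at h5
  exact hpp.one_lt.ne' (Nat.dvd_one.mp h5)

theorem jac_le_real (n : ℕ) (hn : 0 < n) (hs : recip n < 1) :
    (jac n : ℝ) ≤ omega n / (1 - recip n) + 1 := by
  have h1 : 0 < 1 - recip n := by linarith
  set m := ⌊(omega n : ℝ) / (1 - recip n)⌋₊ + 1 with hm
  have h2 : (omega n : ℝ) / (1 - recip n) < m := by
    rw [hm]; push_cast; exact Nat.lt_floor_add_one _
  have h3 : (m : ℝ) ≤ omega n / (1 - recip n) + 1 := by
    rw [hm]; push_cast
    have := Nat.floor_le (a := (omega n : ℝ) / (1 - recip n)) (by positivity)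
    linarith
  have h4 : Good n m := by
    apply good_of_lt n m hn
    rw [div_lt_iff₀ h1] at h2
    linarith
  have h5 : jac n ≤ m := jac_le n m (by omega) h4
  calc (jac n : ℝ) ≤ m := by exact_mod_cast h5
    _ ≤ _ := h3

theorem result : ∀ n : ℕ, 0 < n →
    (0 < jac n ∧ Good n (jac n)) ∧
    omega n + 1 ≤ jac n ∧
    (recip n < 1 → (jac n : ℝ) ≤ omega n / (1 - recip n) + 1) ∧
    (1 ≤ omega n → recip n ≤ 1 - 1 / (omega n : ℝ) → jac n ≤ omega n ^ 2 + 1) ∧
    ((∀ p ∈ n.primeFactors, 2 * omega n ≤ p) → jac n ≤ 2 * omega n + 1) := by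
  intro n hn
  refine ⟨jac_spec n hn, omega_lt_of_good n _ (jac_spec n hn).2, jac_le_real n hn, ?_, ?_⟩
  · intro hk hs
    have hk' : (1 : ℝ) ≤ omega n := by exact_mod_cast hk
    have hk0 : (0 : ℝ) < omega n := by linarith
    have h1 : 1 / (omega n : ℝ) ≤ 1 - recip n := by linarith
    have h0 : 0 < 1 / (omega n : ℝ) := by positivity
    have h2 := jac_le_real n hn (by linarith)
    have h3 : (omega n : ℝ) / (1 - recip n) ≤ (omega n : ℝ) ^ 2 := by
      rw [div_le_iff₀ (by linarith)]
      calc (omega n : ℝ) = (omega n : ℝ) ^ 2 * (1 / (omega n : ℝ)) := by field_simp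
        _ ≤ (omega n : ℝ) ^ 2 * (1 - recip n) := by gcongr
    have h4 : (jac n : ℝ) ≤ ((omega n ^ 2 + 1 : ℕ) : ℝ) := by push_cast; linarith
    exact_mod_cast h4
  · intro hp
    rcases Nat.eq_zero_or_pos (omega n) with hk | hk
    · have hr : recip n = 0 := by
        unfold recip
        unfold omega at hk
        rw [Finset.card_eq_zero.mp hk]; simp
      have h2 := jac_le_real n hn (by rw [hr]; norm_num)
      rw [hr, hk] at h2
      have h4 : (jac n : ℝ) ≤ ((2 * omega n + 1 : ℕ) : ℝ) := by
        rw [hk]; push_cast; linarith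
      exact_mod_cast h4
    · have hk0 : (0 : ℝ) < omega n := by exact_mod_cast hk
      have hr : recip n ≤ 1 / 2 := by
        unfold recip
        calc ∑ p ∈ n.primeFactors, (1 / (p : ℝ)) ≤ ∑ _p ∈ n.primeFactors, (1 / (2 * (omega n : ℝ))) := by
              refine Finset.sum_le_sum fun p hpm => ?_
              have : (2 * (omega n : ℝ)) ≤ p := by exact_mod_cast hp p hpm
              exact one_div_le_one_div_of_le (by positivity) this
          _ = (omega n : ℝ) * (1 / (2 * (omega n : ℝ))) := by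
              rw [Finset.sum_const, nsmul_eq_mul]; rfl
          _ = 1 / 2 := by field_simp
      have h2 := jac_le_real n hn (by linarith)
      have h3 : (omega n : ℝ) / (1 - recip n) ≤ 2 * (omega n : ℝ) := by
        rw [div_le_iff₀ (by linarith)]
        nlinarith
      have h4 : (jac n : ℝ) ≤ ((2 * omega n + 1 : ℕ) : ℝ) := by push_cast; linarith
      exact_mod_cast h4

end Vale.Agent.Results.P013.RoughIntegers
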